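import Mathlib

/-!
Seymour's second neighbourhood conjecture, unweighted, self-contained
(proof of the team: 294's (G) for an arc-minimal counterexample + 848's form of (M12)).
-/

namespace Vale.Agent.P038.H530

open Finset
open scoped Classical

variable {V : Type*} [Fintype V]

/-- closed out-neighbourhood of a set -/
noncomputable def cn (D : V → V → Prop) (S : Finset V) : Finset V :=
  univ.filter (fun y => ∃ x ∈ S, x = y ∨ D x y)

theorem mem_cn {D : V → V → Prop} {S : Finset V} {y : V} :
    y ∈ cn D S ↔ ∃ x ∈ S, x = y ∨ D x y := by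
  simp [cn]

theorem subset_cn (D : V → V → Prop) (S : Finset V) : S ⊆ cn D S := by
  intro x hx
  exact mem_cn.2 ⟨x, hx, Or.inl rfl⟩

theorem cn_mono (D : V → V → Prop) {S T : Finset V} (h : S ⊆ T) : cn D S ⊆ cn D T := by
  intro y hy
  obtain ⟨x, hx, hxy⟩ := mem_cn.1 hy
  exact mem_cn.2 ⟨x, h hx, hxy⟩

theorem cn_union (D : V → V → Prop) (S T : Finset V) : cn D (S ∪ T) = cn D S ∪ cn D T := by
  ext y
  simp only [mem_cn, mem_union]
  constructor
  · rintro ⟨x, hx | hx, h⟩
    · exact Or.inl ⟨x, hx, h⟩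
    · exact Or.inr ⟨x, hx, h⟩
  · rintro (⟨x, hx, h⟩ | ⟨x, hx, h⟩)
    · exact ⟨x, Or.inl hx, h⟩
    · exact ⟨x, Or.inr hx, h⟩

theorem cn_inter (D : V → V → Prop) (S T : Finset V) : cn D (S ∩ T) ⊆ cn D S ∩ cn D T := by
  exact subset_inter (cn_mono D inter_subset_left) (cn_mono D inter_subset_right)

theorem mem_cn1 {D : V → V → Prop} {x y : V} : y ∈ cn D {x} ↔ x = y ∨ D x y := by
  simp [mem_cn]

theorem cn1_subset {D : V → V → Prop} {S : Finset V} {x : V} (h : x ∈ S) : cn D {x} ⊆ cn D S :=
  cn_mono D (by simpa using h)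

/-- boundary function -/
noncomputable def c (D : V → V → Prop) (S : Finset V) : ℤ := ((cn D S).card : ℤ) - (S.card : ℤ)

theorem c_nonneg (D : V → V → Prop) (S : Finset V) : 0 ≤ c D S := by
  have := card_le_card (subset_cn D S)
  unfold c
  omega

theorem c_submod (D : V → V → Prop) (S T : Finset V) :
    c D (S ∪ T) + c D (S ∩ T) ≤ c D S + c D T := by
  unfold c
  have h1 : (cn D (S ∪ T)).card + (cn D (S ∩ T)).card ≤ (cn D S).card + (cn D T).card := by
    rw [cn_union, ← card_union_add_card_inter (cn D S) (cn D T)]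
    exact Nat.add_le_add_left (card_le_card (cn_inter D S T)) _
  have h2 := card_union_add_card_inter S T
  omega

theorem closed_of_c {D : V → V → Prop} {S : Finset V} (h : c D S = 0) : cn D S = S := by
  have h1 : (cn D S).card ≤ S.card := by unfold c at h; omega
  exact (eq_of_subset_of_card_le (subset_cn D S) h1).symm

/-- oriented graph -/
def Ori (D : V → V → Prop) : Prop := ∀ x y, D x y → ¬ D y x

/-- counterexample: all `v` have `c (N[v]) < c {v}` -/
def CE (D : V → V → Prop) : Prop := ∀ v, c D (cn D {v}) < c D {v}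

noncomputable def arcs (D : V → V → Prop) : ℕ := (univ.filter (fun p : V × V => D p.1 p.2)).card

/-! ### 294's (G) -/

theorem G_of_min {D : V → V → Prop} (hD : Ori D) (hCE : CE D)
    (hmin : ∀ D' : V → V → Prop, Ori D' → CE D' → arcs D ≤ arcs D')
    (X : Finset V) (hX : cn D X ≠ X) : c D (cn D X) < c D X := by
  by_contra hcon
  push Not at hcon
  set L : Finset V := cn D X \ X with hL
  have hLne : L.Nonempty := by
    rw [hL, sdiff_nonempty]
    intro h
    exact hX (Subset.antisymm h (subset_cn D X))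
  let d : Finset V → ℤ := fun T => ((cn D T \ X).card : ℤ) - 2 * (T.card : ℤ)
  -- d L ≥ 0
  have hXL : cn D X = X ∪ L := by
    rw [hL]; ext y; simp only [mem_union, mem_sdiff]
    constructor
    · intro h; by_cases hy : y ∈ X
      · exact Or.inl hy
      · exact Or.inr ⟨h, hy⟩
    · rintro (h | h)
      · exact subset_cn D X h
      · exact h.1
  have hdisj : Disjoint X L := by rw [hL]; exact disjoint_sdiff
  have hcX : (cn D X).card = X.card + L.card := by
    rw [hXL, card_union_of_disjoint hdisj]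
  have hccX : (cn D (cn D X)).card = X.card + (cn D L \ X).card := by
    have : cn D (cn D X) = X ∪ (cn D L \ X) := by
      ext y
      constructor
      · intro hy
        by_cases hyX : y ∈ X
        · exact mem_union_left _ hyX
        · refine mem_union_right _ (mem_sdiff.2 ⟨?_, hyX⟩)
          rw [hXL, cn_union] at hy
          rcases mem_union.1 hy with h | h
          · have : y ∈ L := by rw [hL]; exact mem_sdiff.2 ⟨h, hyX⟩
            exact subset_cn D L this
          · exact h
      · intro hy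
        rcases mem_union.1 hy with h | h
        · exact subset_cn D _ (subset_cn D _ h)
        · have h1 := (mem_sdiff.1 h).1
          exact cn_mono D (by rw [hXL]; exact subset_union_right) h1
    rw [this, card_union_of_disjoint]
    exact disjoint_sdiff
  have hdL : 0 ≤ d L := by
    simp only [d]
    unfold c at hcon
    rw [hccX, hcX] at hcon
    push_cast at hcon
    linarith
  -- choose T
  obtain ⟨T, hT, hTmin⟩ := exists_min_image (L.powerset.erase L) d
    ⟨∅, mem_erase.2 ⟨fun h => by rw [← h] at hLne; simp at hLne, by simp⟩⟩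
  rw [mem_erase, mem_powerset] at hT
  have hall : ∀ T' ⊆ L, d T ≤ d T' := by
    intro T' hT'
    by_cases h : T' = L
    · have h0 : d T ≤ d ∅ := hTmin ∅ (mem_erase.2 ⟨fun h => by rw [← h] at hLne; simp at hLne, by simp⟩)
      have : d ∅ = 0 := by simp [d, cn]
      rw [h]; linarith
    · exact hTmin T' (mem_erase.2 ⟨h, mem_powerset.2 hT'⟩)
  have hex : (L \ T).Nonempty := by
    rw [sdiff_nonempty]
    intro h
    exact hT.1 (Subset.antisymm hT.2 h)
  let D' : V → V → Prop := fun a b => D a b ∧ ¬ (a ∈ X ∧ b ∈ L \ T)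
  have hD' : Ori D' := fun x y h1 h2 => hD x y h1.1 h2.1
  have hsub : ∀ x y, D' x y → D x y := fun x y h => h.1
  have hcn' : ∀ S, cn D' S ⊆ cn D S := by
    intro S y hy
    obtain ⟨x, hx, h⟩ := mem_cn.1 hy
    exact mem_cn.2 ⟨x, hx, h.imp id (hsub x y)⟩
  have hCE' : CE D' := by
    intro v
    have hv := hCE v
    set Dv : Finset V := cn D {v} \ cn D' {v} with hDv
    have hDvsub : Dv ⊆ L \ T := by
      intro z hz
      rw [hDv, mem_sdiff, mem_cn1, mem_cn1] at hz
      obtain ⟨h1, h2⟩ := hz
      push Not at h2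
      rcases h1 with h1 | h1
      · exact absurd h1 h2.1
      · by_contra hzc
        exact h2.2 ⟨h1, fun h => hzc h.2⟩
    have hDvX : Dv.Nonempty → v ∈ X := by
      rintro ⟨z, hz⟩
      rw [hDv, mem_sdiff, mem_cn1, mem_cn1] at hz
      obtain ⟨h1, h2⟩ := hz
      push Not at h2
      rcases h1 with h1 | h1
      · exact absurd h1 h2.1
      · by_contra hzc
        exact h2.2 ⟨h1, fun h => hzc h.1⟩
    have hcard1 : (cn D {v}).card = (cn D' {v}).card + Dv.card := by
      rw [hDv, card_sdiff_of_subset (hcn' {v})]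
      have := card_le_card (hcn' {v})
      omega
    -- the lost set
    set E : Finset V := cn D Dv \ (cn D T ∪ X) with hE
    have hEcard : 2 * (Dv.card : ℤ) ≤ E.card := by
      have hTD : Disjoint T Dv := by
        rw [disjoint_left]; intro z hz hz'
        exact (mem_sdiff.1 (hDvsub hz')).2 hz
      have h1 := hall (T ∪ Dv) (union_subset hT.2 (hDvsub.trans sdiff_subset))
      simp only [d] at h1
      rw [card_union_of_disjoint hTD, cn_union] at h1
      have h2 : ((cn D T ∪ cn D Dv) \ X).card ≤ (cn D T \ X).card + E.card := by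
        rw [hE]
        refine (card_le_card ?_).trans (card_union_le _ _)
        intro z hz
        rw [mem_sdiff, mem_union] at hz
        rw [mem_union, mem_sdiff, mem_sdiff, mem_union]
        by_cases hzT : z ∈ cn D T
        · exact Or.inl ⟨hzT, hz.2⟩
        · refine Or.inr ⟨hz.1.resolve_left hzT, ?_⟩
          rintro (h | h)
          · exact hzT h
          · exact hz.2 h
      push_cast at h1
      have h2' : (((cn D T ∪ cn D Dv) \ X).card : ℤ) ≤ (cn D T \ X).card + E.card := by
        exact_mod_cast h2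
      linarith
    have hEsub : E ⊆ cn D (cn D {v}) := by
      intro z hz
      rw [hE, mem_sdiff] at hz
      refine cn_mono D ?_ hz.1
      rw [hDv]; exact sdiff_subset
    have hdis : ∀ z ∈ cn D' (cn D' {v}), z ∉ E := by
      intro z hz hzE
      rw [hE, mem_sdiff, mem_union] at hzE
      obtain ⟨hzD, hzn⟩ := hzE
      push Not at hzn
      obtain ⟨hzT, hzX⟩ := hzn
      have hne : Dv.Nonempty := by
        obtain ⟨x, hx, _⟩ := mem_cn.1 hzD
        exact ⟨x, hx⟩
      have hvX := hDvX hne
      obtain ⟨s, hs, hsz⟩ := mem_cn.1 hz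
      have hsXT : s ∈ X ∨ s ∈ T := by
        rcases mem_cn1.1 hs with h | h
        · rw [← h]; exact Or.inl hvX
        · by_cases hsX : s ∈ X
          · exact Or.inl hsX
          · have hsL : s ∈ L := by
              rw [hL]; exact mem_sdiff.2 ⟨mem_cn.2 ⟨v, hvX, Or.inr h.1⟩, hsX⟩
            by_contra hcon2
            push Not at hcon2
            exact h.2 ⟨hvX, mem_sdiff.2 ⟨hsL, hcon2.2⟩⟩
      rcases hsXT with hsX | hsT
      · rcases hsz with h | h
        · rw [h] at hsX; exact hzX hsX
        · have hzL : z ∈ L := by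
            rw [hL]; exact mem_sdiff.2 ⟨mem_cn.2 ⟨s, hsX, Or.inr h.1⟩, hzX⟩
          by_cases hzT' : z ∈ T
          · exact hzT (subset_cn D T hzT')
          · exact h.2 ⟨hsX, mem_sdiff.2 ⟨hzL, hzT'⟩⟩
      · rcases hsz with h | h
        · rw [h] at hsT; exact hzT (subset_cn D T hsT)
        · exact hzT (mem_cn.2 ⟨s, hsT, Or.inr h.1⟩)
    have hcard2 : (cn D' (cn D' {v})).card + E.card ≤ (cn D (cn D {v})).card := by
      rw [← card_union_of_disjoint (disjoint_left.2 hdis)]
      refine card_le_card (union_subset ?_ hEsub)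
      exact (hcn' _).trans (cn_mono D (hcn' _))
    unfold c at hv ⊢
    rw [hcard1] at hv
    push_cast at hv
    have hcard2' : ((cn D' (cn D' {v})).card : ℤ) + E.card ≤ (cn D (cn D {v})).card := by
      exact_mod_cast hcard2
    simp only [card_singleton, Nat.cast_one] at hv ⊢
    linarith
  have hlt : arcs D' < arcs D := by
    unfold arcs
    apply card_lt_card
    rw [ssubset_iff_of_subset]
    · obtain ⟨z, hz⟩ := hex
      have hzL := (mem_sdiff.1 hz).1
      rw [hL, mem_sdiff] at hzL
      obtain ⟨x, hx, h⟩ := mem_cn.1 hzL.1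
      rcases h with h | h
      · rw [h] at hx; exact absurd hx hzL.2
      · refine ⟨(x, z), by simpa using h, ?_⟩
        simp only [mem_filter, mem_univ, true_and]
        intro hh
        exact hh.2 ⟨hx, hz⟩
    · intro p hp
      simp only [mem_filter, mem_univ, true_and] at hp ⊢
      exact hp.1
  exact absurd (hmin D' hD' hCE') (not_le.2 hlt)

/-! ### pairs -/

/-- outer pair -/
def Pr (D : V → V → Prop) (p : (V → Finset V) × (V → Finset V)) : Prop :=
  (∀ a, cn D {a} ⊆ p.1 a) ∧ (∀ a, cn D {a} ⊆ p.2 a) ∧ (∀ a x, x ∈ p.1 a → a ∈ p.2 x → a = x)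

noncomputable def cost (D : V → V → Prop) (p : (V → Finset V) × (V → Finset V)) : ℤ :=
  ∑ a, c D (p.1 a) + ∑ a, c D (p.2 a)

theorem pr_base {D : V → V → Prop} (hD : Ori D) :
    Pr D (fun a => cn D {a}, fun a => cn D {a}) := by
  refine ⟨fun a => Subset.refl _, fun a => Subset.refl _, ?_⟩
  intro a x h1 h2
  rcases mem_cn1.1 h1 with h | h
  · exact h
  · rcases mem_cn1.1 h2 with h' | h'
    · exact h'.symm
    · exact absurd h' (hD _ _ h)

theorem exists_min_pair {D : V → V → Prop} (hD : Ori D) :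
    ∃ p, Pr D p ∧ ∀ q, Pr D q → cost D p ≤ cost D q := by
  obtain ⟨p, hp, h⟩ := exists_min_image
    (univ.filter (fun p : (V → Finset V) × (V → Finset V) => Pr D p)) (cost D)
    ⟨_, mem_filter.2 ⟨mem_univ _, pr_base hD⟩⟩
  exact ⟨p, (mem_filter.1 hp).2, fun q hq => h q (mem_filter.2 ⟨mem_univ _, hq⟩)⟩

/-! ### min over an interval -/

/-- minimum of `c` over `T` with `P T` -/
theorem exists_min_c (D : V → V → Prop) (P : Finset V → Prop) (h : ∃ T, P T) :
    ∃ T, P T ∧ ∀ T', P T' → c D T ≤ c D T' := by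
  obtain ⟨T0, hT0⟩ := h
  obtain ⟨T, hT, h⟩ := exists_min_image (univ.filter P) (c D) ⟨T0, mem_filter.2 ⟨mem_univ _, hT0⟩⟩
  exact ⟨T, (mem_filter.1 hT).2, fun q hq => h q (mem_filter.2 ⟨mem_univ _, hq⟩)⟩

/-- `mu P A S` : min of `c` over `A ⊆ T ⊆ P`, `P ∩ S ⊆ T` -/
noncomputable def kap (D : V → V → Prop) (A P S : Finset V) (h : A ⊆ P) : ℤ :=
  c D (exists_min_c D (fun T => A ⊆ T ∧ T ⊆ P ∧ P ∩ S ⊆ T) ⟨P, h, Subset.refl _, inter_subset_left⟩).choose

theorem kap_spec (D : V → V → Prop) {A P S : Finset V} (h : A ⊆ P) :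
    ∃ T, A ⊆ T ∧ T ⊆ P ∧ P ∩ S ⊆ T ∧ kap D A P S h = c D T := by
  have := (exists_min_c D (fun T => A ⊆ T ∧ T ⊆ P ∧ P ∩ S ⊆ T)
    ⟨P, h, Subset.refl _, inter_subset_left⟩).choose_spec
  exact ⟨_, this.1.1, this.1.2.1, this.1.2.2, rfl⟩

theorem kap_le (D : V → V → Prop) {A P S : Finset V} (h : A ⊆ P) {T : Finset V}
    (h1 : A ⊆ T) (h2 : T ⊆ P) (h3 : P ∩ S ⊆ T) : kap D A P S h ≤ c D T :=
  (exists_min_c D (fun T => A ⊆ T ∧ T ⊆ P ∧ P ∩ S ⊆ T)
    ⟨P, h, Subset.refl _, inter_subset_left⟩).choose_spec.2 T ⟨h1, h2, h3⟩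

theorem kap_mono (D : V → V → Prop) {A P S S' : Finset V} (h : A ⊆ P) (hS : S ⊆ S') :
    kap D A P S h ≤ kap D A P S' h := by
  obtain ⟨T, h1, h2, h3, h4⟩ := kap_spec D (S := S') h
  rw [h4]
  exact kap_le D h h1 h2 ((inter_subset_inter_left hS).trans h3)

theorem kap_univ (D : V → V → Prop) {A P : Finset V} (h : A ⊆ P) :
    kap D A P univ h = c D P := by
  obtain ⟨T, h1, h2, h3, h4⟩ := kap_spec D (S := univ) h
  rw [h4, show T = P from Subset.antisymm h2 (by simpa using h3)]

theorem kap_congr (D : V → V → Prop) {A P S S' : Finset V} (h : A ⊆ P)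
    (hS : ∀ T, A ⊆ T → T ⊆ P → (P ∩ S ⊆ T ↔ P ∩ S' ⊆ T)) :
    kap D A P S h = kap D A P S' h := by
  apply le_antisymm
  · obtain ⟨T, h1, h2, h3, h4⟩ := kap_spec D (S := S') h
    rw [h4]
    exact kap_le D h h1 h2 ((hS T h1 h2).2 h3)
  · obtain ⟨T, h1, h2, h3, h4⟩ := kap_spec D (S := S) h
    rw [h4]
    exact kap_le D h h1 h2 ((hS T h1 h2).1 h3)

/-- marginal comparison -/
theorem kap_marg (D : V → V → Prop) {A P A' P' S : Finset V} {y : V} (h : A ⊆ P) (h' : A' ⊆ P')
    (hA : A ⊆ A') (hP : P ⊆ P') (hy : y ∈ P) :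
    kap D A P S h + kap D A' P' (insert y S) h' ≤ kap D A P (insert y S) h + kap D A' P' S h' := by
  obtain ⟨T1, a1, a2, a3, a4⟩ := kap_spec D (S := insert y S) h
  obtain ⟨T0, b1, b2, b3, b4⟩ := kap_spec D (S := S) h'
  rw [a4, b4]
  have k1 : kap D A' P' (insert y S) h' ≤ c D (T1 ∪ T0) := by
    refine kap_le D h' (b1.trans subset_union_right) (union_subset (a2.trans hP) b2) ?_
    intro z hz
    rw [mem_inter, mem_insert] at hz
    rcases hz.2 with hz2 | hz2
    · refine mem_union_left _ (a3 ?_)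
      rw [hz2, mem_inter]
      exact ⟨hy, mem_insert_self _ _⟩
    · exact mem_union_right _ (b3 (mem_inter.2 ⟨hz.1, hz2⟩))
  have k2 : kap D A P S h ≤ c D (T1 ∩ T0) := by
    refine kap_le D h (subset_inter a1 (hA.trans b1)) (inter_subset_left.trans a2) ?_
    intro z hz
    rw [mem_inter] at hz
    refine mem_inter.2 ⟨a3 (mem_inter.2 ⟨hz.1, mem_insert_of_mem hz.2⟩), b3 (mem_inter.2 ⟨hP hz.1, hz.2⟩)⟩
  have := c_submod D T1 T0
  linarith

/-! ### main inequality -/

theorem main_ineq {D : V → V → Prop} (hD : Ori D)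
    (p : (V → Finset V) × (V → Finset V)) (hp : Pr D p)
    (hmin : ∀ q, Pr D q → cost D p ≤ cost D q) :
    ∃ X Y : V → Finset V, (∀ a, a ∈ X a) ∧ (∀ a, a ∈ Y a) ∧
      Pr D (fun a => cn D (X a), fun a => cn D (Y a)) ∧
      ∑ a, c D (X a) + ∑ a, c D (Y a) ≤ cost D p := by
  obtain ⟨B, C⟩ := p
  obtain ⟨hB, hC, hBC⟩ := hp
  simp only at hB hC hBC
  let Bh : V → Finset V := fun a => univ.filter (fun x => x = a ∨ a ∉ C x)
  let Xh : V → Finset V := fun a => univ.filter (fun x => ∀ a', a ∈ cn D {a'} → x ∈ Bh a')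
  let Y : V → Finset V := fun y => univ.filter (fun z => ∀ y', y ∈ cn D {y'} → z ∈ C y')
  have mBh : ∀ a x, x ∈ Bh a ↔ (x = a ∨ a ∉ C x) := by intro a x; simp [Bh]
  have mXh : ∀ a x, x ∈ Xh a ↔ ∀ a', a ∈ cn D {a'} → x ∈ Bh a' := by intro a x; simp [Xh]
  have mY : ∀ y z, z ∈ Y y ↔ ∀ y', y ∈ cn D {y'} → z ∈ C y' := by intro a x; simp [Y]
  have self : ∀ a, a ∈ cn D {a} := fun a => subset_cn D _ (mem_singleton_self a)
  have BBh : ∀ a, B a ⊆ Bh a := by
    intro a x hx
    rw [mBh]
    by_cases h : a ∈ C x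
    · exact Or.inl (hBC a x hx h).symm
    · exact Or.inr h
  have XhBh : ∀ a, Xh a ⊆ Bh a := fun a x hx => (mXh a x).1 hx a (self a)
  have XhBh' : ∀ a a', a ∈ cn D {a'} → Xh a ⊆ Bh a' := fun a a' h x hx => (mXh a x).1 hx a' h
  have aXh : ∀ a, a ∈ Xh a := by
    intro a
    rw [mXh]
    intro a' h
    exact BBh a' (hB a' h)
  have yY : ∀ y, y ∈ Y y := by
    intro y
    rw [mY]
    intro y' h
    exact hC y' h
  have YC : ∀ y, Y y ⊆ C y := fun y z hz => (mY y z).1 hz y (self y)
  -- (0) feasibility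
  have feas : ∀ a y, y ∈ cn D (Xh a) → a ∈ cn D (Y y) → a = y := by
    intro a y h1 h2
    obtain ⟨x, hx, hxy⟩ := mem_cn.1 h1
    obtain ⟨z, hz, hza⟩ := mem_cn.1 h2
    have hyx : y ∈ cn D {x} := mem_cn1.2 hxy
    have haz : a ∈ cn D {z} := mem_cn1.2 hza
    have e1 := (mXh a x).1 hx z haz
    have e2 := (mY y z).1 hz x hyx
    rw [mBh] at e1
    have hxz : x = z := e1.resolve_right (fun h => h e2)
    subst hxz
    have e3 : a ∈ C x := hC x haz
    have e4 := (mBh a x).1 (XhBh a hx)
    have hxa : x = a := e4.resolve_right (fun h => h e3)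
    subst hxa
    exact hBC x y (hB x hyx) (YC y hz)
  -- X
  have hXex : ∀ a, ∃ T, ({a} ⊆ T ∧ T ⊆ Xh a) ∧ ∀ T', ({a} ⊆ T' ∧ T' ⊆ Xh a) → c D T ≤ c D T' :=
    fun a => exists_min_c D _ ⟨Xh a, by simpa using aXh a, Subset.refl _⟩
  choose X hX1 hX2 using hXex
  have aX : ∀ a, a ∈ X a := fun a => (hX1 a).1 (mem_singleton_self a)
  have XXh : ∀ a, X a ⊆ Xh a := fun a => (hX1 a).2
  refine ⟨X, Y, aX, yY, ⟨fun a => cn1_subset (aX a), fun a => cn1_subset (yY a), ?_⟩, ?_⟩
  · intro a y h1 h2
    exact feas a y (cn_mono D (XXh a) h1) h2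
  -- (2) optimality
  have optR : ∀ a T, B a ⊆ T → T ⊆ Bh a → c D (B a) ≤ c D T := by
    intro a T h1 h2
    have hq : Pr D (Function.update B a T, C) := by
      refine ⟨?_, hC, ?_⟩
      · intro b
        by_cases hb : b = a
        · subst hb; simp only [Function.update_self]; exact (hB b).trans h1
        · simp only [Function.update_of_ne hb]; exact hB b
      · intro b x hx hbx
        by_cases hb : b = a
        · subst hb
          simp only [Function.update_self] at hx
          rcases (mBh b x).1 (h2 hx) with h | h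
          · exact h.symm
          · exact absurd hbx h
        · simp only [Function.update_of_ne hb] at hx
          exact hBC b x hx hbx
    have h := hmin _ hq
    simp only [cost] at h
    have e : ∑ b, c D (Function.update B a T b) = ∑ b, c D (B b) - c D (B a) + c D T := by
      rw [← Finset.add_sum_erase univ _ (mem_univ a), ← Finset.add_sum_erase univ (fun b => c D (B b)) (mem_univ a)]
      simp only [Function.update_self]
      have : ∑ x ∈ univ.erase a, c D (Function.update B a T x) = ∑ x ∈ univ.erase a, c D (B x) :=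
        sum_congr rfl (fun x hx => by rw [Function.update_of_ne (ne_of_mem_erase hx)])
      rw [this]; ring
    rw [e] at h
    linarith
  have optC : ∀ y K, (∀ a ∈ K, y ∈ Bh a ∧ y ∉ B a) → K.card ≤ (cn D K \ cn D (C y)).card := by
    intro y K hK
    have hKC : Disjoint (C y) K := by
      rw [disjoint_left]
      intro a ha haK
      obtain ⟨h1, h2⟩ := hK a haK
      rcases (mBh a y).1 h1 with h | h
      · rw [h] at h2; exact h2 (hB a (self a))
      · exact h ha
    have hq : Pr D (B, Function.update C y (C y ∪ K)) := by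
      refine ⟨hB, ?_, ?_⟩
      · intro b
        by_cases hb : b = y
        · subst hb; simp only [Function.update_self]; exact (hC b).trans subset_union_left
        · simp only [Function.update_of_ne hb]; exact hC b
      · intro b x hx hbx
        by_cases hb : x = y
        · subst hb
          simp only [Function.update_self] at hbx
          rcases mem_union.1 hbx with h | h
          · exact hBC b x hx h
          · exact absurd hx (hK b h).2
        · simp only [Function.update_of_ne hb] at hbx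
          exact hBC b x hx hbx
    have h := hmin _ hq
    simp only [cost] at h
    have e : ∑ b, c D (Function.update C y (C y ∪ K) b) = ∑ b, c D (C b) - c D (C y) + c D (C y ∪ K) := by
      rw [← Finset.add_sum_erase univ _ (mem_univ y), ← Finset.add_sum_erase univ (fun b => c D (C b)) (mem_univ y)]
      simp only [Function.update_self]
      have : ∑ x ∈ univ.erase y, c D (Function.update C y (C y ∪ K) x) = ∑ x ∈ univ.erase y, c D (C x) :=
        sum_congr rfl (fun x hx => by rw [Function.update_of_ne (ne_of_mem_erase hx)])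
      rw [this]; ring
    rw [e] at h
    have h3 : c D (C y) ≤ c D (C y ∪ K) := by linarith
    unfold c at h3
    rw [card_union_of_disjoint hKC, cn_union] at h3
    have h4 : (cn D (C y) ∪ cn D K).card = (cn D (C y)).card + (cn D K \ cn D (C y)).card := by
      rw [← card_union_of_disjoint disjoint_sdiff, union_sdiff_self_eq_union]
    rw [h4] at h3
    push_cast at h3
    have : (K.card : ℤ) ≤ (cn D K \ cn D (C y)).card := by linarith
    exact_mod_cast this
  -- Hall injections
  let g : V → Finset V := fun y => univ.filter (fun a => y ∈ Bh a ∧ y ∉ B a)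
  have mg : ∀ y a, a ∈ g y ↔ (y ∈ Bh a ∧ y ∉ B a) := by intro y a; simp [g]
  have hall : ∀ y, ∃ i : {a // a ∈ g y} → V, Function.Injective i ∧
      ∀ a, i a ∈ cn D {a.1} ∧ y ∈ Xh (i a) := by
    intro y
    let t : {a // a ∈ g y} → Finset V := fun a => (cn D {a.1}).filter (fun v => y ∈ Xh v)
    have h1 := (Finset.all_card_le_biUnion_card_iff_exists_injective t).1 (by
      intro s
      have hK := optC y (s.map (Function.Embedding.subtype _)) (by
        intro a ha
        rw [mem_map] at ha
        obtain ⟨b, _, rfl⟩ := ha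
        exact (mg y _).1 b.2)
      rw [card_map] at hK
      refine hK.trans (card_le_card ?_)
      intro v hv
      rw [mem_sdiff] at hv
      obtain ⟨hv1, hv2⟩ := hv
      obtain ⟨a, ha, hav⟩ := mem_cn.1 hv1
      rw [mem_map] at ha
      obtain ⟨b, hb, rfl⟩ := ha
      rw [mem_biUnion]
      refine ⟨b, hb, mem_filter.2 ⟨mem_cn1.2 hav, ?_⟩⟩
      rw [mXh]
      intro a' ha'
      rw [mBh]
      by_cases h : a' ∈ C y
      · exact absurd (cn1_subset h ha') hv2
      · exact Or.inr h)
    obtain ⟨i, hi, hi2⟩ := h1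
    exact ⟨i, hi, fun a => ⟨(mem_filter.1 (hi2 a)).1, (mem_filter.1 (hi2 a)).2⟩⟩
  -- (3) key lemma
  have hsX : ∀ a, ({a} : Finset V) ⊆ Xh a := fun a => by simpa using aXh a
  let e : V → Finset V → ℤ := fun a S => kap D (B a) (Bh a) S (BBh a)
  let dd : V → Finset V → ℤ := fun a S => kap D {a} (Xh a) S (hsX a)
  have step : ∀ y S, ∑ a, e a (insert y S) - ∑ a, e a S ≤ ∑ a, dd a (insert y S) - ∑ a, dd a S := by
    intro y S
    rw [← sum_sub_distrib, ← sum_sub_distrib]
    obtain ⟨i, hi, hi2⟩ := hall y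
    have l1 : ∑ a, (e a (insert y S) - e a S) = ∑ a ∈ g y, (e a (insert y S) - e a S) := by
      symm
      apply sum_subset (subset_univ _)
      intro a _ ha
      have : e a (insert y S) = e a S := by
        apply kap_congr
        intro T h1 h2
        have ha' : ¬ (y ∈ Bh a ∧ y ∉ B a) := fun h => ha ((mg y a).2 h)
        constructor
        · intro h
          exact (inter_subset_inter_left (subset_insert _ _)).trans h
        · intro h z hz
          rw [mem_inter, mem_insert] at hz
          rcases hz.2 with h3 | h3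
          · rw [h3] at hz ⊢
            by_cases hyB : y ∈ B a
            · exact h1 hyB
            · exact absurd ⟨hz.1, hyB⟩ ha'
          · exact h (mem_inter.2 ⟨hz.1, h3⟩)
      rw [this]; ring
    rw [l1, ← sum_attach]
    have l2 : ∑ a ∈ (g y).attach, (e a.1 (insert y S) - e a.1 S) ≤
        ∑ a ∈ (g y).attach, (dd (i a) (insert y S) - dd (i a) S) := by
      apply sum_le_sum
      intro a _
      have hm := kap_marg D (S := S) (y := y) (hsX (i a)) (BBh a.1)
        (by simpa using hB a.1 (hi2 a).1) (XhBh' _ _ (hi2 a).1) (hi2 a).2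
      simp only [e, dd]
      linarith
    refine l2.trans ?_
    have l3 : ∑ a ∈ (g y).attach, (dd (i a) (insert y S) - dd (i a) S) =
        ∑ v ∈ (g y).attach.image i, (dd v (insert y S) - dd v S) := by
      rw [sum_image (fun a _ b _ h => hi h)]
    rw [l3]
    apply sum_le_sum_of_subset_of_nonneg (subset_univ _)
    intro v _ _
    have := kap_mono D (hsX v) (subset_insert y S)
    simp only [dd]
    linarith
  have tel : ∀ S : Finset V, ∑ a, e a S - ∑ a, e a ∅ ≤ ∑ a, dd a S - ∑ a, dd a ∅ := by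
    intro S
    induction S using Finset.induction_on with
    | empty => simp
    | insert y S _ ih =>
      have := step y S
      linarith
  have hkey : ∑ a, c D (Bh a) - ∑ a, c D (B a) ≤ ∑ a, c D (Xh a) - ∑ a, c D (X a) := by
    have h1 := tel univ
    have e1 : ∀ a, e a univ = c D (Bh a) := fun a => kap_univ D (BBh a)
    have e2 : ∀ a, dd a univ = c D (Xh a) := fun a => kap_univ D (hsX a)
    have e3 : ∀ a, e a ∅ ≤ c D (B a) := fun a =>
      kap_le D (BBh a) (Subset.refl _) (BBh a) (by simp)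
    have e4 : ∀ a, c D (X a) ≤ dd a ∅ := by
      intro a
      obtain ⟨T, h1, h2, h3, h4⟩ := kap_spec D (S := ∅) (hsX a)
      simp only [dd]
      rw [h4]
      exact hX2 a T ⟨h1, h2⟩
    simp only [e1, e2] at h1
    have s3 := sum_le_sum (fun a (_ : a ∈ (univ : Finset V)) => e3 a)
    have s4 := sum_le_sum (fun a (_ : a ∈ (univ : Finset V)) => e4 a)
    linarith
  -- (1)
  have hone : ∑ a, c D (Xh a) + ∑ a, c D (Y a) ≤ ∑ a, c D (Bh a) + ∑ a, c D (C a) := by
    have cnt : ∀ S : Finset V, c D S = ∑ y : V, (if y ∈ cn D S ∧ y ∉ S then (1 : ℤ) else 0) := by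
      intro S
      rw [Finset.sum_boole]
      have : (univ.filter (fun y => y ∈ cn D S ∧ y ∉ S)) = cn D S \ S := by
        ext y; simp
      rw [this, card_sdiff_of_subset (subset_cn D S)]
      unfold c
      have := card_le_card (subset_cn D S)
      omega
    simp only [cnt]
    rw [sum_comm (f := fun y a => if a ∈ cn D (Y y) ∧ a ∉ Y y then (1 : ℤ) else 0),
      sum_comm (f := fun y a => if a ∈ cn D (C y) ∧ a ∉ C y then (1 : ℤ) else 0),
      ← sum_add_distrib, ← sum_add_distrib]
    apply sum_le_sum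
    intro a _
    rw [← sum_add_distrib, ← sum_add_distrib]
    apply sum_le_sum
    intro y _
    -- pointwise
    by_cases p1 : y ∈ cn D (Xh a) ∧ y ∉ Xh a
    · have np2 : ¬ (a ∈ cn D (Y y) ∧ a ∉ Y y) := by
        intro h
        have := feas a y p1.1 h.1
        rw [← this] at p1
        exact p1.2 (aXh a)
      rw [if_pos p1, if_neg np2]
      have hR : (y ∈ cn D (Bh a) ∧ y ∉ Bh a) ∨ (a ∈ cn D (C y) ∧ a ∉ C y) := by
        have h2 := p1.2
        rw [mXh] at h2
        push Not at h2
        obtain ⟨a', h3, h4⟩ := h2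
        rw [mBh] at h4
        push Not at h4
        have h5 : a ∈ cn D (C y) := cn1_subset h4.2 h3
        by_cases h6 : a ∈ C y
        · left
          refine ⟨cn_mono D (XhBh a) p1.1, ?_⟩
          rw [mBh]
          push Not
          refine ⟨?_, h6⟩
          intro h7
          rw [h7] at p1
          exact p1.2 (aXh a)
        · exact Or.inr ⟨h5, h6⟩
      rcases hR with h | h
      · rw [if_pos h]; split_ifs <;> norm_num
      · rw [if_pos h]; split_ifs <;> norm_num
    · rw [if_neg p1]
      by_cases p2 : a ∈ cn D (Y y) ∧ a ∉ Y y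
      · rw [if_pos p2]
        have hR : (y ∈ cn D (Bh a) ∧ y ∉ Bh a) ∨ (a ∈ cn D (C y) ∧ a ∉ C y) := by
          have h2 := p2.2
          rw [mY] at h2
          push Not at h2
          obtain ⟨y', h3, h4⟩ := h2
          have h5 : y' ∈ Bh a := (mBh a y').2 (Or.inr h4)
          have h6 : y ∈ cn D (Bh a) := cn1_subset h5 h3
          by_cases h7 : y ∈ Bh a
          · right
            refine ⟨cn_mono D (YC y) p2.1, ?_⟩
            rcases (mBh a y).1 h7 with h8 | h8
            · rw [h8] at p2
              exact absurd (yY a) p2.2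
            · exact h8
          · exact Or.inl ⟨h6, h7⟩
        rcases hR with h | h
        · rw [if_pos h]; split_ifs <;> norm_num
        · rw [if_pos h]; split_ifs <;> norm_num
      · rw [if_neg p2]
        split_ifs <;> norm_num
  simp only [cost]
  linarith

/-! ### no counterexample -/

theorem no_CE [Nonempty V] (D : V → V → Prop) (hD : Ori D) (hCE : CE D) : False := by
  -- arc-minimal counterexample
  obtain ⟨D, ⟨hD, hCE⟩, hmin⟩ : ∃ D : V → V → Prop, (Ori D ∧ CE D) ∧
      ∀ D' : V → V → Prop, Ori D' → CE D' → arcs D ≤ arcs D' := by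
    have hex : ∃ n, ∃ D : V → V → Prop, (Ori D ∧ CE D) ∧ arcs D = n := ⟨_, D, ⟨hD, hCE⟩, rfl⟩
    obtain ⟨D0, h0, h1⟩ := Nat.find_spec hex
    refine ⟨D0, h0, fun D' h2 h3 => ?_⟩
    rw [h1]
    exact Nat.find_min' hex ⟨D', ⟨h2, h3⟩, rfl⟩
  have hG := fun X hX => G_of_min hD hCE hmin X hX
  have hG' : ∀ X, c D (cn D X) ≤ c D X := by
    intro X
    by_cases h : cn D X = X
    · rw [h]
    · exact (hG X h).le
  obtain ⟨p, hp, hpm⟩ := exists_min_pair hD
  obtain ⟨X, Y, hX, hY, hq, hle⟩ := main_ineq hD p hp hpm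
  have h1 := hpm _ hq
  have h2 : cost D (fun a => cn D (X a), fun a => cn D (Y a)) =
      ∑ a, c D (cn D (X a)) + ∑ a, c D (cn D (Y a)) := rfl
  have sX := sum_le_sum (fun a (_ : a ∈ (univ : Finset V)) => hG' (X a))
  have sY := sum_le_sum (fun a (_ : a ∈ (univ : Finset V)) => hG' (Y a))
  -- all X a closed
  have clX : ∀ a, cn D (X a) = X a := by
    intro a
    by_contra hne
    have : ∑ a, c D (cn D (X a)) < ∑ a, c D (X a) :=
      sum_lt_sum (fun a _ => hG' (X a)) ⟨a, mem_univ a, hG _ hne⟩
    rw [h2] at h1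
    linarith
  have clY : ∀ a, cn D (Y a) = Y a := by
    intro a
    by_contra hne
    have : ∑ a, c D (cn D (Y a)) < ∑ a, c D (Y a) :=
      sum_lt_sum (fun a _ => hG' (Y a)) ⟨a, mem_univ a, hG _ hne⟩
    rw [h2] at h1
    linarith
  have hzero : ∀ S, cn D S = S → c D S = 0 := by
    intro S h
    unfold c
    rw [h]; ring
  have hcost0 : cost D p ≤ 0 := by
    refine h1.trans ?_
    rw [h2]
    simp only [clX, clY]
    rw [sum_eq_zero (fun a _ => hzero _ (clX a)), sum_eq_zero (fun a _ => hzero _ (clY a))]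
    norm_num
  have hBcl : ∀ a, cn D (p.1 a) = p.1 a := by
    intro a
    apply closed_of_c
    have n1 : ∀ a ∈ (univ : Finset V), 0 ≤ c D (p.1 a) := fun a _ => c_nonneg D _
    have n2 : 0 ≤ ∑ a, c D (p.2 a) := sum_nonneg (fun a _ => c_nonneg D _)
    have n3 : c D (p.1 a) ≤ ∑ a, c D (p.1 a) := single_le_sum n1 (mem_univ a)
    simp only [cost] at hcost0
    have := c_nonneg D (p.1 a)
    linarith
  -- smallest nonempty closed set
  obtain ⟨Z, hZ, hZm⟩ := exists_min_image
    (univ.filter (fun Z : Finset V => Z.Nonempty ∧ cn D Z = Z)) Finset.card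
    ⟨univ, mem_filter.2 ⟨mem_univ _, univ_nonempty, by
      apply Subset.antisymm (subset_univ _) (subset_cn D _)⟩⟩
  rw [mem_filter] at hZ
  obtain ⟨-, hZne, hZcl⟩ := hZ
  obtain ⟨a, ha⟩ := hZne
  -- a has an out-neighbour
  have hout : ∃ b, D a b := by
    by_contra hno
    push Not at hno
    have : cn D {a} = {a} := by
      ext y
      rw [mem_cn1, mem_singleton]
      constructor
      · rintro (h | h)
        · exact h.symm
        · exact absurd h (hno y)
      · intro h; exact Or.inl h.symm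
    have hh := hCE a
    rw [this] at hh
    exact lt_irrefl _ hh
  obtain ⟨b, hab⟩ := hout
  have hbZ : b ∈ Z := by rw [← hZcl]; exact mem_cn.2 ⟨a, ha, Or.inr hab⟩
  have hanb : a ∉ p.1 b := by
    intro h
    have h3 : b ∈ p.2 a := hp.2.1 a (mem_cn1.2 (Or.inr hab))
    have h4 := hp.2.2 b a h h3
    rw [h4] at hab
    exact hD a a hab hab
  have hcl2 : cn D (p.1 b ∩ Z) = p.1 b ∩ Z := by
    apply Subset.antisymm _ (subset_cn D _)
    have := cn_inter D (p.1 b) Z
    rwa [hBcl b, hZcl] at this
  have hne2 : (p.1 b ∩ Z).Nonempty :=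
    ⟨b, mem_inter.2 ⟨hp.1 b (subset_cn D _ (mem_singleton_self b)), hbZ⟩⟩
  have h5 := hZm (p.1 b ∩ Z) (mem_filter.2 ⟨mem_univ _, hne2, hcl2⟩)
  have h6 : p.1 b ∩ Z = Z := eq_of_subset_of_card_le inter_subset_right h5
  have : a ∈ p.1 b ∩ Z := by rw [h6]; exact ha
  exact hanb (mem_inter.1 this).1

/-- **Seymour's second neighbourhood conjecture.** -/
theorem seymour [Nonempty V] (D : V → V → Prop) (hD : ∀ x y, D x y → ¬ D y x) :
    ∃ v : V, (univ.filter (fun u => D v u)).card ≤
      (univ.filter (fun z => z ≠ v ∧ ¬ D v z ∧ ∃ u, D v u ∧ D u z)).card := by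
  by_contra hcon
  push Not at hcon
  apply no_CE D hD
  intro v
  have h := hcon v
  have hirr : ∀ x, ¬ D x x := fun x hx => hD x x hx hx
  set A : Finset V := univ.filter (fun u => D v u) with hA
  set A2 : Finset V := univ.filter (fun z => z ≠ v ∧ ¬ D v z ∧ ∃ u, D v u ∧ D u z) with hA2
  have e1 : cn D {v} = insert v A := by
    ext y
    simp only [mem_cn1, mem_insert, hA, mem_filter, mem_univ, true_and]
    constructor
    · rintro (h | h)
      · exact Or.inl h.symm
      · exact Or.inr h
    · rintro (h | h)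
      · exact Or.inl h.symm
      · exact Or.inr h
  have e2 : cn D (cn D {v}) = insert v A ∪ A2 := by
    ext y
    rw [mem_cn, mem_union, ← e1, mem_cn1]
    simp only [mem_cn1, hA2, mem_filter, mem_univ, true_and]
    constructor
    · rintro ⟨x, hx, hxy⟩
      by_cases h1 : v = y ∨ D v y
      · exact Or.inl h1
      · right
        push Not at h1
        refine ⟨fun h => h1.1 h.symm, h1.2, ?_⟩
        rcases hx with hx | hx
        · subst hx
          rcases hxy with hxy | hxy
          · exact absurd hxy h1.1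
          · exact absurd hxy h1.2
        · rcases hxy with hxy | hxy
          · subst hxy; exact absurd hx h1.2
          · exact ⟨x, hx, hxy⟩
    · rintro (h1 | ⟨h1, h2, u, h3, h4⟩)
      · exact ⟨y, h1, Or.inl rfl⟩
      · exact ⟨u, Or.inr h3, Or.inr h4⟩
  have hvA : v ∉ A := by simp [hA, hirr]
  have hdis : Disjoint (insert v A) A2 := by
    rw [disjoint_left]
    intro y hy hy2
    simp only [mem_insert, hA, hA2, mem_filter, mem_univ, true_and] at hy hy2
    rcases hy with hy | hy
    · exact hy2.1 hy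
    · exact hy2.2.1 hy
  unfold c
  rw [e2, e1, card_union_of_disjoint hdis, card_insert_of_notMem hvA, card_singleton]
  push_cast
  have : (A2.card : ℤ) < A.card := by exact_mod_cast h
  linarith

end Vale.Agent.P038.H530
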